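import Mathlib

/-!
A derivation of the field of real numbers with prescribed value at some element.

Derivations of `ℝ` vanish on algebraic numbers. A transcendence basis gives a derivation of a
purely transcendental subfield, and separable algebraicity extends it to all of `ℝ`.
-/

namespace Vale.Agent.P058

open TrivSqZeroExt

/-- An additive map obeying the Leibniz rule. -/
structure IsDeriv (δ : ℝ → ℝ) : Prop where
  add : ∀ a b, δ (a + b) = δ a + δ b
  mul : ∀ a b, δ (a * b) = a * δ b + b * δ a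

lemma IsDeriv.smul {δ : ℝ → ℝ} (h : IsDeriv δ) (w : ℝ) : IsDeriv fun r => w * δ r :=
  ⟨fun a b => by simp only [h.add]; ring, fun a b => by simp only [h.mul]; ring⟩

lemma IsDeriv.zero {δ : ℝ → ℝ} (h : IsDeriv δ) : δ 0 = 0 := by
  have := h.add 0 0; simp only [add_zero] at this; linarith

lemma IsDeriv.one {δ : ℝ → ℝ} (h : IsDeriv δ) : δ 1 = 0 := by
  have := h.mul 1 1; simp only [mul_one, one_mul] at this; linarith

lemma IsDeriv.neg {δ : ℝ → ℝ} (h : IsDeriv δ) (a : ℝ) : δ (-a) = -δ a := by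
  have := h.add a (-a); rw [add_neg_cancel, h.zero] at this; linarith

lemma IsDeriv.sub {δ : ℝ → ℝ} (h : IsDeriv δ) (a b : ℝ) : δ (a - b) = δ a - δ b := by
  rw [sub_eq_add_neg, h.add, h.neg]; ring

lemma IsDeriv.two {δ : ℝ → ℝ} (h : IsDeriv δ) : δ 2 = 0 := by
  rw [← one_add_one_eq_two, h.add, h.one, add_zero]

lemma IsDeriv.sq {δ : ℝ → ℝ} (h : IsDeriv δ) (a : ℝ) : δ (a ^ 2) = 2 * a * δ a := by
  rw [pow_two, h.mul]; ring

lemma IsDeriv.sum {δ : ℝ → ℝ} (h : IsDeriv δ) {ι : Type*} (s : Finset ι) (f : ι → ℝ) :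
    δ (∑ i ∈ s, f i) = ∑ i ∈ s, δ (f i) :=
  map_sum (AddMonoidHom.mk' δ h.add) f s

open scoped IntermediateField.algebraAdjoinAdjoin in
/-- Some derivation of `ℝ` is nonzero. -/
theorem exists_deriv : ∃ δ : ℝ → ℝ, IsDeriv δ ∧ ∃ t, δ t = 1 := by
  classical
  obtain ⟨s, hs⟩ := exists_isTranscendenceBasis ℚ ℝ
  have hne : Nonempty s := by
    by_contra hcon
    rw [not_nonempty_iff] at hcon
    have halg : Algebra.IsAlgebraic ℚ ℝ := hs.isEmpty_iff_isAlgebraic.1 hcon
    have h1 : IsAlgebraic ℚ (liouvilleNumber 2) := halg.isAlgebraic _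
    exact transcendental_liouvilleNumber le_rfl (by
      simpa using (IsFractionRing.isAlgebraic_iff ℤ ℚ ℝ).2 h1)
  obtain ⟨i₀⟩ := hne
  let A := Algebra.adjoin ℚ (Set.range ((↑) : s → ℝ))
  let K := IntermediateField.adjoin ℚ (Set.range ((↑) : s → ℝ))
  let φ : MvPolynomial s ℚ →ₐ[ℚ] DualNumber ℝ :=
    MvPolynomial.aeval fun i => inl (i : ℝ) + inr (if i = i₀ then 1 else 0)
  let g : A →+* DualNumber ℝ := φ.toRingHom.comp hs.1.aevalEquiv.symm.toRingEquiv.toRingHom
  have hfst : ∀ p, fst (φ p) = MvPolynomial.aeval ((↑) : s → ℝ) p := by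
    intro p
    have : (TrivSqZeroExt.fstHom ℚ ℝ ℝ).comp φ = MvPolynomial.aeval ((↑) : s → ℝ) :=
      MvPolynomial.algHom_ext fun i => by by_cases h : i = i₀ <;> simp [φ, h]
    exact DFunLike.congr_fun this p
  have hg : ∀ a : A, fst (g a) = (a : ℝ) := by
    intro a
    obtain ⟨p, rfl⟩ := hs.1.aevalEquiv.surjective a
    simp [g, hfst]
  have hunit : ∀ y : nonZeroDivisors A, IsUnit (g y) := by
    intro y
    rw [isUnit_iff_isUnit_fst, isUnit_iff_ne_zero, hg]
    intro h0
    exact nonZeroDivisors.coe_ne_zero y (Subtype.ext h0)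
  let ψ : K →+* DualNumber ℝ := IsLocalization.lift hunit
  have hψ : ∀ x : K, fst (ψ x) = (x : ℝ) := by
    have : ((TrivSqZeroExt.fstHom ℚ ℝ ℝ).toRingHom.comp ψ) = (algebraMap K ℝ) := by
      refine IsLocalization.ringHom_ext (nonZeroDivisors A) (RingHom.ext fun a => ?_)
      change fst (ψ (algebraMap A K a)) = algebraMap K ℝ (algebraMap A K a)
      rw [IsLocalization.lift_eq, hg, ← IsScalarTower.algebraMap_apply]
      rfl
    exact fun x => RingHom.congr_fun this x
  let : Algebra K (DualNumber ℝ) := ψ.toAlgebra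
  let F : DualNumber ℝ →ₐ[K] ℝ :=
    { (TrivSqZeroExt.fstHom ℚ ℝ ℝ).toRingHom with commutes' := fun x => hψ x }
  have hFsurj : Function.Surjective F := fun r => ⟨inl r, rfl⟩
  have hnil : IsNilpotent (RingHom.ker (F : DualNumber ℝ →+* ℝ)) := by
    refine ⟨2, ?_⟩
    rw [Submodule.pow_succ, Submodule.pow_one, Submodule.zero_eq_bot, eq_bot_iff, Ideal.mul_le]
    intro a ha b hb
    have ha' : fst a = 0 := ha
    have hb' : fst b = 0 := hb
    exact (Submodule.mem_bot _).2 (TrivSqZeroExt.ext (by simp [ha']) (by simp [ha', hb']))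
  have : Algebra.IsAlgebraic K ℝ := hs.isAlgebraic_field
  have : Algebra.FormallyEtale K ℝ := Algebra.FormallyEtale.of_isSeparable K ℝ
  let L : ℝ →ₐ[K] DualNumber ℝ :=
    Algebra.FormallySmooth.liftOfSurjective (AlgHom.id K ℝ) F hFsurj hnil
  have hL : ∀ r, fst (L r) = r := fun r =>
    Algebra.FormallySmooth.liftOfSurjective_apply (AlgHom.id K ℝ) F hFsurj hnil r
  refine ⟨fun r => snd (L r), ⟨fun a b => by simp, fun a b => ?_⟩, i₀, ?_⟩
  · simp only [map_mul, snd_mul, hL, op_smul_eq_smul, smul_eq_mul]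
  · have hk : ((i₀ : ℝ)) = algebraMap K ℝ (algebraMap A K (hs.1.aevalEquiv (MvPolynomial.X i₀))) := by
      rw [← IsScalarTower.algebraMap_apply, hs.1.algebraMap_aevalEquiv, MvPolynomial.aeval_X]
    change snd (L (i₀ : ℝ)) = 1
    rw [hk, L.commutes]
    change snd (ψ _) = 1
    simp [ψ, IsLocalization.lift_eq, g, φ]

end Vale.Agent.P058
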