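import Mathlib
import Vale.Agent.P058.Deriv

/-!
A set of eight points on the unit circle that is not Euclidean Ramsey.

The points are the square `(±1, 0), (0, ±1)` together with `(c, ±s), (-s, ±c)` where `c² + s² = 1`
and a derivation `δ` of `ℝ` has `δ c = -s`, `δ s = c`. With suitable weights `lam`, every congruent
copy `x` of the set in any `ℝᴰ` satisfies `∑ i, lam i * ∑ d, δ (x i d) ^ 2 = 2 * (c - s) ≠ 0`.
-/

namespace Vale.Agent.P058

open Finset
open scoped RealInnerProductSpace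

/-- Euclidean space. -/
abbrev Sp (D : ℕ) := EuclideanSpace ℝ (Fin D)

/-- First coordinates of the eight points. -/
def ptX (c s : ℝ) : Fin 8 → ℝ := ![1, -1, 0, 0, c, c, -s, -s]

/-- Second coordinates of the eight points. -/
def ptY (c s : ℝ) : Fin 8 → ℝ := ![0, 0, 1, -1, s, -s, c, -c]

/-- The eight points. -/
def pt (c s : ℝ) (i : Fin 8) : Sp 2 := !₂[ptX c s i, ptY c s i]

/-- The weights. -/
def lam (c s : ℝ) : Fin 8 → ℝ :=
  ![-(c ^ 3 - s ^ 3) - 1, -(c ^ 3 - s ^ 3) + 1, -(c * s * (s - c)), -(c * s * (s - c)),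
    c, c, -s, -s]

/-- A Pythagorean pair rotated by a derivation. -/
lemma exists_rotation : ∃ (δ : ℝ → ℝ) (c s : ℝ),
    IsDeriv δ ∧ c ^ 2 + s ^ 2 = 1 ∧ δ c = -s ∧ δ s = c := by
  obtain ⟨D, hD, t, ht⟩ := exists_deriv
  have hδ : IsDeriv fun r => (1 + t ^ 2) / 2 * D r := hD.smul _
  set δ := fun r => (1 + t ^ 2) / 2 * D r with hδdef
  have hne : 1 + t ^ 2 ≠ 0 := by positivity
  have hδt : δ t = (1 + t ^ 2) / 2 := by simp [hδdef, ht]
  refine ⟨δ, (1 - t ^ 2) / (1 + t ^ 2), 2 * t / (1 + t ^ 2), hδ, by field_simp; ring, ?_, ?_⟩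
  · have h1 := congrArg δ (div_mul_cancel₀ (1 - t ^ 2) hne)
    rw [hδ.mul, hδ.sub, hδ.add, hδ.one, hδ.sq, hδt] at h1
    field_simp at h1 ⊢
    apply mul_left_cancel₀ hne
    linear_combination h1
  · have h1 := congrArg δ (div_mul_cancel₀ (2 * t) hne)
    rw [hδ.mul, hδ.mul 2 t, hδ.two, hδ.add, hδ.one, hδ.sq, hδt] at h1
    field_simp at h1 ⊢
    apply mul_left_cancel₀ hne
    linear_combination h1

variable {δ : ℝ → ℝ} {c s : ℝ}

lemma nondegenerate (hδ : IsDeriv δ) (h : c ^ 2 + s ^ 2 = 1) (hc : δ c = -s) (hs : δ s = c) :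
    c ≠ 0 ∧ s ≠ 0 ∧ c ≠ s ∧ c ≠ -s := by
  refine ⟨?_, ?_, ?_, ?_⟩
  · rintro rfl
    rw [hδ.zero] at hc
    nlinarith
  · rintro rfl
    rw [hδ.zero] at hs
    nlinarith
  · rintro rfl
    rw [hs] at hc
    nlinarith
  · rintro rfl
    rw [hδ.neg, hs] at hc
    nlinarith

lemma pt_injective (hδ : IsDeriv δ) (h : c ^ 2 + s ^ 2 = 1) (hc : δ c = -s) (hs : δ s = c) :
    Function.Injective (pt c s) := by
  obtain ⟨h1, h2, h3, h4⟩ := nondegenerate hδ h hc hs
  intro i j hij
  have hx : ptX c s i = ptX c s j := by simpa [pt] using congrArg (fun p : Sp 2 => p 0) hij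
  have hy : ptY c s i = ptY c s j := by simpa [pt] using congrArg (fun p : Sp 2 => p 1) hij
  fin_cases i <;> fin_cases j <;> simp [ptX, ptY] at hx hy ⊢ <;>
    first
      | linarith
      | exact absurd (by linarith) h1
      | exact absurd (by linarith) h2
      | exact absurd (by linarith) h3
      | exact absurd (by linarith) h4

lemma norm_pt (h : c ^ 2 + s ^ 2 = 1) (i : Fin 8) : ‖pt c s i‖ = 1 := by
  have : ‖pt c s i‖ ^ 2 = 1 := by
    rw [EuclideanSpace.norm_sq_eq, Fin.sum_univ_two]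
    fin_cases i <;> simp [pt, ptX, ptY] <;> linarith
  nlinarith [norm_nonneg (pt c s i)]

/-- Inner products of affine differences are preserved by congruence. -/
lemma inner_comb {D : ℕ} {q : Fin 8 → Sp D} {p : Fin 8 → Sp 2}
    (hd : ∀ i j, dist (q i) (q j) = dist (p i) (p j)) {w w' : Fin 8 → ℝ}
    (hw : ∑ i, w i = 0) (hw' : ∑ i, w' i = 0) :
    ⟪∑ i, w i • q i, ∑ i, w' i • q i⟫ = ⟪∑ i, w i • p i, ∑ i, w' i • p i⟫ := by
  rw [inner_sum_smul_sum_smul_of_sum_eq_zero q hw q hw',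
    inner_sum_smul_sum_smul_of_sum_eq_zero p hw p hw']
  simp only [← dist_eq_norm, hd]

/-- Every congruent copy is the image of the eight points under an isometric affine map. -/
lemma exists_frame {D : ℕ} {q : Fin 8 → Sp D}
    (hd : ∀ i j, dist (q i) (q j) = dist (pt c s i) (pt c s j)) :
    ∃ a u v : Sp D, (∀ i, q i = a + ptX c s i • u + ptY c s i • v) ∧
      ∑ d, u d ^ 2 = 1 ∧ ∑ d, v d ^ 2 = 1 ∧ ∑ d, u d * v d = 0 := by
  set a := (1 / 2 : ℝ) • (q 0 + q 1) with ha
  set u := (1 / 2 : ℝ) • (q 0 - q 1) with hu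
  set v := (1 / 2 : ℝ) • (q 2 - q 3) with hv
  let wu : Fin 8 → ℝ := ![1 / 2, -(1 / 2), 0, 0, 0, 0, 0, 0]
  let wv : Fin 8 → ℝ := ![0, 0, 1 / 2, -(1 / 2), 0, 0, 0, 0]
  have hwu : ∑ i, wu i = 0 := by simp [wu, Fin.sum_univ_eight]
  have hwv : ∑ i, wv i = 0 := by simp [wv, Fin.sum_univ_eight]
  have equ : ∑ i, wu i • q i = u := by
    simp [wu, hu, Fin.sum_univ_eight, sub_eq_add_neg]
  have eqv : ∑ i, wv i • q i = v := by
    simp [wv, hv, Fin.sum_univ_eight, sub_eq_add_neg]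
  have epu : ∑ i, wu i • pt c s i = !₂[1, 0] := by
    ext k; fin_cases k <;> simp [wu, pt, ptX, ptY, Fin.sum_univ_eight]
    norm_num
  have epv : ∑ i, wv i • pt c s i = !₂[0, 1] := by
    ext k; fin_cases k <;> simp [wv, pt, ptX, ptY, Fin.sum_univ_eight]
    norm_num
  refine ⟨a, u, v, fun i => ?_, ?_, ?_, ?_⟩
  · let w : Fin 8 → ℝ := fun j =>
      (if j = i then 1 else 0) - (1 / 2) * ((if j = 0 then 1 else 0) + (if j = 1 then 1 else 0))
        - ptX c s i * wu j - ptY c s i * wv j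
    have hw : ∑ j, w j = 0 := by
      simp only [w, sum_sub_distrib, sum_add_distrib, ← mul_sum, sum_ite_eq', mem_univ, if_true,
        hwu, hwv]
      norm_num
    have he : ∑ j, w j • q j = q i - a - ptX c s i • u - ptY c s i • v := by
      simp only [w, sub_smul, mul_smul, add_smul, sum_sub_distrib, sum_add_distrib, ← smul_sum,
        ite_smul, one_smul, zero_smul, sum_ite_eq', mem_univ, if_true, equ, eqv, ha]
    have he' : ∑ j, w j • pt c s j = 0 := by
      simp only [w, sub_smul, mul_smul, add_smul, sum_sub_distrib, sum_add_distrib, ← smul_sum,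
        ite_smul, one_smul, zero_smul, sum_ite_eq', mem_univ, if_true, epu, epv]
      ext k
      fin_cases k <;> simp [pt, ptX, ptY]
    have h0 := inner_comb hd hw hw
    rw [he, he', inner_zero_left, inner_self_eq_zero, sub_sub, sub_sub, sub_eq_zero] at h0
    rw [h0, add_assoc]
  · have h0 := inner_comb hd hwu hwu
    rw [equ, epu, real_inner_self_eq_norm_sq, EuclideanSpace.real_norm_sq_eq] at h0
    rw [h0]
    simp [EuclideanSpace.norm_eq, Fin.sum_univ_two]
  · have h0 := inner_comb hd hwv hwv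
    rw [eqv, epv, real_inner_self_eq_norm_sq, EuclideanSpace.real_norm_sq_eq] at h0
    rw [h0]
    simp [EuclideanSpace.norm_eq, Fin.sum_univ_two]
  · have h0 := inner_comb hd hwu hwv
    rw [equ, eqv, epu, epv] at h0
    simpa [PiLp.inner_apply, Fin.sum_univ_two, mul_comm] using h0

lemma sum_lam (h : c ^ 2 + s ^ 2 = 1) : ∑ i, lam c s i = 0 := by
  simp [lam, Fin.sum_univ_eight]
  linear_combination -2 * (c - s) * h

/-- The colour function: the squared length of the derived vector. -/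
def derivSq (δ : ℝ → ℝ) {D : ℕ} (x : Sp D) : ℝ := ∑ d, δ (x d) ^ 2

/-- The weighted derived lengths of every congruent copy sum to `2 * (c - s)`. -/
lemma invariant (hδ : IsDeriv δ) (h : c ^ 2 + s ^ 2 = 1) (hc : δ c = -s) (hs : δ s = c) {D : ℕ}
    {q : Fin 8 → Sp D} (hd : ∀ i j, dist (q i) (q j) = dist (pt c s i) (pt c s j)) :
    ∑ i, lam c s i * derivSq δ (q i) = 2 * (c - s) := by
  obtain ⟨a, u, v, hq, huu, hvv, huv⟩ := exists_frame hd
  have hu' : ∑ d, u d * δ (u d) = 0 := by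
    have h1 := congrArg δ huu
    simp only [hδ.sum, hδ.sq, hδ.one, mul_assoc, ← mul_sum] at h1
    linarith
  have hv' : ∑ d, v d * δ (v d) = 0 := by
    have h1 := congrArg δ hvv
    simp only [hδ.sum, hδ.sq, hδ.one, mul_assoc, ← mul_sum] at h1
    linarith
  set X' : Fin 8 → ℝ := ![0, 0, 0, 0, -s, -s, -c, -c] with hX'
  set Y' : Fin 8 → ℝ := ![0, 0, 0, 0, c, -c, -s, s] with hY'
  have hX : ∀ i, δ (ptX c s i) = X' i := fun i => by
    fin_cases i <;> simp [ptX, hX', hδ.zero, hδ.one, hδ.neg, hc, hs]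
  have hY : ∀ i, δ (ptY c s i) = Y' i := fun i => by
    fin_cases i <;> simp [ptY, hY', hδ.zero, hδ.one, hδ.neg, hc, hs]
  have hcoord : ∀ i d, δ (q i d) =
      δ (a d) + (ptX c s i * δ (u d) + u d * X' i) + (ptY c s i * δ (v d) + v d * Y' i) := by
    intro i d
    rw [hq i, show (a + ptX c s i • u + ptY c s i • v) d
      = a d + ptX c s i * u d + ptY c s i * v d by simp, hδ.add, hδ.add, hδ.mul, hδ.mul, hX, hY]
  have hterm : ∀ d, ∑ i, lam c s i * δ (q i d) ^ 2 =
      (2 * (c * s ^ 2 - s * c ^ 2)) * u d ^ 2 + 2 * (c ^ 3 - s ^ 3) * v d ^ 2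
        + 4 * c * s * (c + s) * (v d * δ (v d)) + (-(4 * c * s * (c + s))) * (u d * δ (u d)) := by
    intro d
    simp only [hcoord]
    simp [lam, ptX, ptY, hX', hY', Fin.sum_univ_eight]
    linear_combination (4 * δ (a d) * δ (u d) - 2 * (c - s) * δ (a d) ^ 2) * h
  simp only [derivSq, mul_sum]
  rw [sum_comm, sum_congr rfl fun d _ => hterm d]
  simp only [sum_add_distrib, ← mul_sum, huu, hvv, hu', hv']
  linear_combination 2 * (c - s) * h

/-- The scale of the colouring. -/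
noncomputable def gauge (δ : ℝ → ℝ) (c s : ℝ) {D : ℕ} (i : Fin 8) (x : Sp D) : ℝ :=
  16 * lam c s i * derivSq δ x / (2 * (c - s))

/-- There are no monochromatic copies for the colouring by the rounded weights. -/
lemma no_copy (hδ : IsDeriv δ) (h : c ^ 2 + s ^ 2 = 1) (hc : δ c = -s) (hs : δ s = c) {D : ℕ}
    {q : Fin 8 → Sp D} (hd : ∀ i j, dist (q i) (q j) = dist (pt c s i) (pt c s j)) :
    ¬ ∀ i j, ((⌊gauge δ c s i (q j)⌋ : ℤ) : ZMod 32) = ((⌊gauge δ c s i (q 0)⌋ : ℤ) : ZMod 32) := by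
  intro hmono
  have hne : 2 * (c - s) ≠ 0 :=
    mul_ne_zero two_ne_zero (sub_ne_zero.2 (nondegenerate hδ h hc hs).2.2.1)
  choose k hk using fun i => ((ZMod.intCast_eq_intCast_iff_dvd_sub _ _ 32).1 (hmono i i).symm)
  have h16 : ∑ i, (gauge δ c s i (q i) - gauge δ c s i (q 0)) = 16 := by
    have h0 : ∑ i, gauge δ c s i (q 0) = 0 := by
      simp only [gauge, ← sum_div, ← sum_mul, ← mul_sum, sum_lam h, mul_zero, zero_mul, zero_div]
    rw [sum_sub_distrib, h0, sub_zero]
    simp only [gauge, ← sum_div, mul_assoc, ← mul_sum, invariant hδ h hc hs hd]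
    rw [mul_div_assoc, div_self hne, mul_one]
  set K : ℤ := ∑ i, k i with hK
  set e : Fin 8 → ℝ := fun i =>
    Int.fract (gauge δ c s i (q i)) - Int.fract (gauge δ c s i (q 0)) with he
  have hsum : (32 * K : ℤ) + ∑ i, e i = (16 : ℝ) := by
    rw [← h16, hK, Finset.mul_sum, Int.cast_sum, ← sum_add_distrib]
    refine sum_congr rfl fun i _ => ?_
    have h1 : ((⌊gauge δ c s i (q i)⌋ : ℤ) : ℝ) - ⌊gauge δ c s i (q 0)⌋ = ((32 * k i : ℤ) : ℝ) := by
      rw [← Int.cast_sub, hk i]; norm_num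
    simp only [he, Int.fract]
    linarith
  have he1 : |∑ i, e i| < 8 := by
    refine (abs_sum_le_sum_abs e univ).trans_lt ?_
    refine (sum_lt_sum_of_nonempty univ_nonempty (g := fun _ => (1 : ℝ)) fun i _ => ?_).trans_eq
      (by simp)
    simp only [he, abs_lt]
    constructor <;>
      linarith [Int.fract_nonneg (gauge δ c s i (q i)), Int.fract_lt_one (gauge δ c s i (q i)),
        Int.fract_nonneg (gauge δ c s i (q 0)), Int.fract_lt_one (gauge δ c s i (q 0))]
  rw [abs_lt] at he1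
  push_cast at hsum
  have hlo : (0 : ℝ) < (K : ℝ) := by linarith
  have hhi : (K : ℝ) < 1 := by linarith
  have hlo' : (0 : ℤ) < K := by exact_mod_cast hlo
  have hhi' : K < (1 : ℤ) := by exact_mod_cast hhi
  omega

/-- Eight distinct points on the unit circle without monochromatic copies in a bounded number of
colours, in every dimension. -/
theorem exists_spherical_not_ramsey : ∃ p : Fin 8 → Sp 2, Function.Injective p ∧ (∀ i, ‖p i‖ = 1) ∧
    ∃ r : ℕ, 2 ≤ r ∧ ∀ D : ℕ, ∃ col : Sp D → Fin r, ∀ q : Fin 8 → Sp D,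
      (∀ i j, dist (q i) (q j) = dist (p i) (p j)) → ∃ i j, col (q i) ≠ col (q j) := by
  obtain ⟨δ, c, s, hδ, h, hc, hs⟩ := exists_rotation
  refine ⟨pt c s, pt_injective hδ h hc hs, norm_pt h, 32 ^ 8, by norm_num, fun D => ?_⟩
  have hcard : Fintype.card (Fin 8 → ZMod 32) = 32 ^ 8 := by simp
  refine ⟨fun x => Fintype.equivFinOfCardEq hcard fun i => ((⌊gauge δ c s i x⌋ : ℤ) : ZMod 32),
    fun q hd => ?_⟩
  by_contra hcon
  simp only [not_exists, not_ne_iff] at hcon
  exact no_copy hδ h hc hs hd fun i j =>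
    congr_fun ((Fintype.equivFinOfCardEq hcard).injective (hcon j 0)) i

end Vale.Agent.P058
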