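import Mathlib
import Vale.Agent.P058.Obstruction

/-!
The derivation criterion for sets that are not Ramsey.

If weights `l` annihilate the quadratic functions on an affinely spanning set `p`, and the derived
points `δ p` have vanishing first moment, symmetric mixed moment and nonzero weighted squared
length, then `p` is not Ramsey.
-/

namespace Vale.Agent.P058

open Finset
open scoped RealInnerProductSpace

variable {δ : ℝ → ℝ} {ι : Type*} [Fintype ι] {d : ℕ}

/-- The affine span is everything, in the form of prescribed moments of weights. -/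
def Spans (p : ι → Sp d) : Prop :=
  ∀ (b : ℝ) (y : Sp d), ∃ w : ι → ℝ, ∑ i, w i = b ∧ ∑ i, w i • p i = y

/-- The point with derived coordinates. -/
def derivPt (δ : ℝ → ℝ) (x : Sp d) : Sp d := WithLp.toLp 2 fun k => δ (x k)

lemma inner_comb' {D : ℕ} {q : ι → Sp D} {p : ι → Sp d}
    (hd : ∀ i j, dist (q i) (q j) = dist (p i) (p j)) {w w' : ι → ℝ}
    (hw : ∑ i, w i = 0) (hw' : ∑ i, w' i = 0) :
    ⟪∑ i, w i • q i, ∑ i, w' i • q i⟫ = ⟪∑ i, w i • p i, ∑ i, w' i • p i⟫ := by
  rw [inner_sum_smul_sum_smul_of_sum_eq_zero q hw q hw',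
    inner_sum_smul_sum_smul_of_sum_eq_zero p hw p hw']
  simp only [← dist_eq_norm, hd]

lemma sum_coord_smul_single (x : Sp d) : ∑ k, x k • EuclideanSpace.single k (1 : ℝ) = x := by
  ext j
  simp [Pi.single_apply]

/-- A congruent copy of a spanning set is its image under an isometric affine map. -/
lemma exists_frame' {D : ℕ} {q : ι → Sp D} {p : ι → Sp d} (hp : Spans p)
    (hd : ∀ i j, dist (q i) (q j) = dist (p i) (p j)) :
    ∃ (a : Sp D) (u : Fin d → Sp D), (∀ i, q i = a + ∑ k, p i k • u k) ∧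
      ∀ k l, ∑ x, u k x * u l x = if k = l then 1 else 0 := by
  classical
  choose w hw0 hwp using fun k : Fin d => hp 0 (EuclideanSpace.single k (1 : ℝ))
  obtain ⟨v, hv1, hvp⟩ := hp 1 0
  refine ⟨∑ j, v j • q j, fun k => ∑ j, w k j • q j, fun i => ?_, fun k l => ?_⟩
  · let z : ι → ℝ := fun j => (if j = i then 1 else 0) - v j - ∑ k, p i k * w k j
    have hz : ∑ j, z j = 0 := by
      simp only [z, sum_sub_distrib, sum_ite_eq', mem_univ, if_true, hv1]
      rw [sum_comm]
      simp only [← mul_sum, hw0, mul_zero, sum_const_zero]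
      norm_num
    have hexp : ∀ {E : ℕ} (r : ι → Sp E), ∑ j, z j • r j
        = r i - ∑ j, v j • r j - ∑ k, p i k • ∑ j, w k j • r j := by
      intro E r
      simp only [z, sub_smul, sum_sub_distrib, ite_smul, one_smul, zero_smul, sum_ite_eq',
        mem_univ, if_true, sum_smul, mul_smul]
      congr 1
      rw [sum_comm]
      simp only [← smul_sum]
    have h0 := inner_comb' hd hz hz
    rw [hexp q, hexp p, hvp, sub_zero] at h0
    simp only [hwp, sum_coord_smul_single, sub_self, inner_zero_left, inner_self_eq_zero,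
      sub_sub, sub_eq_zero] at h0
    exact h0
  · have h0 := inner_comb' hd (hw0 k) (hw0 l)
    rw [hwp, hwp, PiLp.inner_apply] at h0
    simpa [mul_comm, Pi.single_apply, eq_comm, EuclideanSpace.inner_single_left] using h0

/-- The weighted derived lengths of all congruent copies agree. -/
lemma weighted_derivSq (hδ : IsDeriv δ) {p : ι → Sp d} (hp : Spans p) {l : ι → ℝ}
    (h0 : ∑ i, l i = 0) (h1 : ∀ k, ∑ i, l i * p i k = 0)
    (h2 : ∀ k m, ∑ i, l i * (p i k * p i m) = 0) (h3 : ∀ k, ∑ i, l i * δ (p i k) = 0)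
    (h4 : ∀ k m, ∑ i, l i * (p i k * δ (p i m)) = ∑ i, l i * (p i m * δ (p i k)))
    {D : ℕ} {q : ι → Sp D} (hd : ∀ i j, dist (q i) (q j) = dist (p i) (p j)) :
    ∑ i, l i * derivSq δ (q i) = ∑ i, l i * derivSq δ (p i) := by
  obtain ⟨a, u, hq, hu⟩ := exists_frame' hp hd
  have hskew : ∀ k m, ∑ x, u k x * δ (u m x) + ∑ x, u m x * δ (u k x) = 0 := by
    intro k m
    have h := congrArg δ (hu k m)
    rw [hδ.sum] at h
    simp only [hδ.mul, sum_add_distrib] at h
    rw [h]
    split_ifs
    exacts [hδ.one, hδ.zero]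
  set M : Fin d → Fin d → ℝ := fun k m => ∑ i, l i * (p i k * δ (p i m)) with hM
  set W : Fin d → Fin d → ℝ := fun k m => ∑ i, l i * (δ (p i k) * δ (p i m)) with hW
  have hterm : ∀ x, ∑ i, l i * δ (q i x) ^ 2 =
      ∑ k, ∑ m, (2 * M k m * (δ (u k x) * u m x) + W k m * (u k x * u m x)) := by
    intro x
    have hc : ∀ i, δ (q i x) = δ (a x) + ∑ k, (p i k * δ (u k x) + u k x * δ (p i k)) := by
      intro i
      rw [hq i, show (a + ∑ k, p i k • u k) x = a x + ∑ k, p i k * u k x by
        simp [WithLp.ofLp_sum, Finset.sum_apply], hδ.add, hδ.sum]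
      simp only [hδ.mul]
    have hsq : ∀ i, δ (q i x) ^ 2 = δ (a x) ^ 2
        + ∑ k, (2 * δ (a x) * δ (u k x) * p i k + 2 * δ (a x) * u k x * δ (p i k))
        + ∑ k, ∑ m, (δ (u k x) * δ (u m x) * (p i k * p i m)
          + 2 * (δ (u k x) * u m x) * (p i k * δ (p i m))
          + u k x * u m x * (δ (p i k) * δ (p i m))) := by
      intro i
      have hsym : ∑ k, ∑ m, u k x * δ (p i k) * (p i m * δ (u m x))
          = ∑ k, ∑ m, p i k * δ (u k x) * (u m x * δ (p i m)) := by
        rw [sum_comm]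
        exact sum_congr rfl fun _ _ => sum_congr rfl fun _ _ => mul_comm _ _
      rw [hc i, add_sq, mul_sum, sq (∑ k, _), sum_mul_sum]
      simp only [add_mul, mul_add, sum_add_distrib, hsym]
      simp only [← sum_add_distrib]
      congr 1
      · congr 1
        exact sum_congr rfl fun _ _ => by ring
      · exact sum_congr rfl fun _ _ => sum_congr rfl fun _ _ => by ring
    have hA : ∑ i, l i * δ (a x) ^ 2 = 0 := by rw [← sum_mul, h0, zero_mul]
    have hB : ∀ k, ∑ i, l i * (2 * δ (a x) * δ (u k x) * p i k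
        + 2 * δ (a x) * u k x * δ (p i k)) = 0 := fun k => by
      rw [sum_congr rfl fun i _ => show l i * (2 * δ (a x) * δ (u k x) * p i k
          + 2 * δ (a x) * u k x * δ (p i k)) = 2 * δ (a x) * δ (u k x) * (l i * p i k)
          + 2 * δ (a x) * u k x * (l i * δ (p i k)) by ring,
        sum_add_distrib, ← mul_sum, ← mul_sum, h1, h3]
      ring
    have hC : ∀ k m, ∑ i, l i * (δ (u k x) * δ (u m x) * (p i k * p i m)
        + 2 * (δ (u k x) * u m x) * (p i k * δ (p i m))
        + u k x * u m x * (δ (p i k) * δ (p i m)))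
        = 2 * M k m * (δ (u k x) * u m x) + W k m * (u k x * u m x) := fun k m => by
      rw [sum_congr rfl fun i _ => show l i * (δ (u k x) * δ (u m x) * (p i k * p i m)
          + 2 * (δ (u k x) * u m x) * (p i k * δ (p i m))
          + u k x * u m x * (δ (p i k) * δ (p i m)))
          = δ (u k x) * δ (u m x) * (l i * (p i k * p i m))
          + 2 * (δ (u k x) * u m x) * (l i * (p i k * δ (p i m)))
          + u k x * u m x * (l i * (δ (p i k) * δ (p i m))) by ring,
        sum_add_distrib, sum_add_distrib, ← mul_sum, ← mul_sum, ← mul_sum, h2]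
      simp only [hM, hW]
      ring
    rw [sum_congr rfl fun i _ => show l i * δ (q i x) ^ 2 = _ by rw [hsq i, mul_add, mul_add],
      sum_add_distrib, sum_add_distrib, hA, zero_add]
    simp only [mul_sum]
    rw [sum_comm, sum_eq_zero (fun k _ => hB k), zero_add, sum_comm]
    refine sum_congr rfl fun k _ => ?_
    rw [sum_comm]
    exact sum_congr rfl fun m _ => hC k m
  simp only [derivSq, mul_sum]
  rw [sum_comm, sum_congr rfl fun x _ => hterm x, sum_comm]
  calc ∑ k, ∑ x, ∑ m, (2 * M k m * (δ (u k x) * u m x) + W k m * (u k x * u m x))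
      = ∑ k, ∑ m, (M k m * (2 * ∑ x, u m x * δ (u k x))
          + W k m * (if k = m then 1 else 0)) := by
        refine sum_congr rfl fun k _ => ?_
        rw [sum_comm]
        refine sum_congr rfl fun m _ => ?_
        rw [sum_add_distrib, ← mul_sum, ← mul_sum, hu k m,
          sum_congr rfl fun x _ => mul_comm (δ (u k x)) (u m x)]
        ring
    _ = ∑ k, ∑ m, (M k m * (2 * ∑ x, u m x * δ (u k x))) + ∑ k, W k k := by
        simp only [sum_add_distrib, mul_ite, mul_one, mul_zero, sum_ite_eq, mem_univ, if_true]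
    _ = 0 + ∑ k, W k k := by
        congr 1
        have e : ∑ k, ∑ m, (M k m * (2 * ∑ x, u m x * δ (u k x)))
            = ∑ k, ∑ m, (M k m * (2 * ∑ x, u k x * δ (u m x))) := by
          rw [sum_comm]
          exact sum_congr rfl fun k _ => sum_congr rfl fun m _ => by simp only [hM, h4 m k]
        have e2 : ∑ k, ∑ m, (M k m * (2 * ∑ x, u m x * δ (u k x)))
            + ∑ k, ∑ m, (M k m * (2 * ∑ x, u k x * δ (u m x))) = 0 := by
          simp only [← sum_add_distrib, ← mul_add, hskew, mul_zero, sum_const_zero]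
        linarith
    _ = ∑ i, ∑ x, l i * δ (p i x) ^ 2 := by
        rw [zero_add, sum_comm]
        exact sum_congr rfl fun k _ => sum_congr rfl fun i _ => by ring

/-- Weights with a constant nonzero weighted value of some function exclude monochromatic copies
for a colouring by rounded values. -/
lemma no_copy_of_weights {D : ℕ} (F : Sp D → ℝ) {l : ι → ℝ} (h0 : ∑ i, l i = 0) {S : ℝ}
    (hS : S ≠ 0) {q : ι → Sp D} (hq : ∑ i, l i * F (q i) = S) (i₀ : ι) :
    ¬ ∀ i j, ((⌊2 * Fintype.card ι * l i * F (q j) / S⌋ : ℤ) : ZMod (4 * Fintype.card ι))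
      = ((⌊2 * Fintype.card ι * l i * F (q i₀) / S⌋ : ℤ) : ZMod (4 * Fintype.card ι)) := by
  intro hmono
  have : Nonempty ι := ⟨i₀⟩
  set N := Fintype.card ι with hN
  have hN0 : (1 : ℝ) ≤ N := by exact_mod_cast Fintype.card_pos
  set g : ι → ι → ℝ := fun i j => 2 * N * l i * F (q j) / S with hg
  choose k hk using fun i =>
    ((ZMod.intCast_eq_intCast_iff_dvd_sub _ _ (4 * N)).1 (hmono i i).symm)
  have htot : ∑ i, (g i i - g i i₀) = 2 * N := by
    simp only [hg, sum_sub_distrib, ← sum_div, mul_assoc, ← mul_sum, hq]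
    rw [← sum_mul, h0]
    field_simp
    ring
  set e : ι → ℝ := fun i => Int.fract (g i i) - Int.fract (g i i₀) with he
  have hsum : 4 * (N : ℝ) * ((∑ i, k i : ℤ) : ℝ) + ∑ i, e i = 2 * N := by
    rw [← htot, Int.cast_sum, mul_sum, ← sum_add_distrib]
    refine sum_congr rfl fun i _ => ?_
    have h1 : ((⌊g i i⌋ : ℤ) : ℝ) - ⌊g i i₀⌋ = (((4 * N : ℕ) : ℤ) * k i : ℤ) := by
      rw [← Int.cast_sub, ← hk i]
    push_cast at h1
    simp only [he, Int.fract]
    linarith
  have he1 : |∑ i, e i| < N := by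
    refine (abs_sum_le_sum_abs e univ).trans_lt ?_
    refine (sum_lt_sum_of_nonempty univ_nonempty (g := fun _ => (1 : ℝ)) fun i _ => ?_).trans_eq
      (by simp [hN])
    simp only [he, abs_lt]
    constructor <;>
      linarith [Int.fract_nonneg (g i i), Int.fract_lt_one (g i i),
        Int.fract_nonneg (g i i₀), Int.fract_lt_one (g i i₀)]
  rw [abs_lt] at he1
  generalize (∑ i, k i) = K at hsum
  have hlo : (0 : ℝ) < (K : ℝ) := by nlinarith
  have hhi : (K : ℝ) < 1 := by nlinarith
  have hlo' : (0 : ℤ) < K := by exact_mod_cast hlo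
  have hhi' : K < (1 : ℤ) := by exact_mod_cast hhi
  omega

/-- The derivation criterion. -/
theorem not_ramsey_of_deriv (hδ : IsDeriv δ) {p : ι → Sp d} (hp : Spans p) {l : ι → ℝ}
    (h0 : ∑ i, l i = 0) (h1 : ∀ k, ∑ i, l i * p i k = 0)
    (h2 : ∀ k m, ∑ i, l i * (p i k * p i m) = 0) (h3 : ∀ k, ∑ i, l i * δ (p i k) = 0)
    (h4 : ∀ k m, ∑ i, l i * (p i k * δ (p i m)) = ∑ i, l i * (p i m * δ (p i k)))
    (h5 : ∑ i, l i * derivSq δ (p i) ≠ 0) :
    ∃ r : ℕ, 2 ≤ r ∧ ∀ D : ℕ, ∃ col : Sp D → Fin r, ∀ q : ι → Sp D,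
      (∀ i j, dist (q i) (q j) = dist (p i) (p j)) → ∃ i j, col (q i) ≠ col (q j) := by
  classical
  obtain ⟨i₀⟩ : Nonempty ι := by
    by_contra hcon
    rw [not_nonempty_iff] at hcon
    exact h5 (by simp)
  have hN : 0 < Fintype.card ι := Fintype.card_pos_iff.2 ⟨i₀⟩
  have : NeZero (4 * Fintype.card ι) := ⟨by omega⟩
  have hcard : Fintype.card (ι → ZMod (4 * Fintype.card ι))
      = (4 * Fintype.card ι) ^ Fintype.card ι := by simp
  refine ⟨(4 * Fintype.card ι) ^ Fintype.card ι, ?_, fun D => ?_⟩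
  · calc 2 ≤ 4 * Fintype.card ι := by omega
      _ ≤ _ := le_self_pow₀ (by omega) (by omega)
  refine ⟨fun x => Fintype.equivFinOfCardEq hcard fun i =>
    ((⌊2 * Fintype.card ι * l i * derivSq δ x / ∑ i, l i * derivSq δ (p i)⌋ : ℤ) :
      ZMod (4 * Fintype.card ι)), fun q hd => ?_⟩
  by_contra hcon
  simp only [not_exists, not_ne_iff] at hcon
  exact no_copy_of_weights (derivSq δ) h0 h5 (weighted_derivSq hδ hp h0 h1 h2 h3 h4 hd) i₀
    fun i j => congr_fun ((Fintype.equivFinOfCardEq hcard).injective (hcon j i₀)) i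

end Vale.Agent.P058
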