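import Mathlib
import Vale.Agent.P058.Deriv

/-!
Derivations of the real numbers with prescribed values on algebraically independent reals.
-/

namespace Vale.Agent.P058

open TrivSqZeroExt

open scoped IntermediateField.algebraAdjoinAdjoin in
/-- A derivation with arbitrary values on an algebraically independent family. -/
theorem exists_deriv_prescribed {κ : Type*} {t : κ → ℝ} (ht : AlgebraicIndependent ℚ t)
    (w : κ → ℝ) : ∃ δ : ℝ → ℝ, IsDeriv δ ∧ ∀ j, δ (t j) = w j := by
  classical
  obtain ⟨s, hts, hs⟩ := exists_isTranscendenceBasis_superset (R := ℚ) ht.to_subtype_range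
  let emb : κ → s := fun j => ⟨t j, hts ⟨j, rfl⟩⟩
  have hemb : Function.Injective emb := fun a b h => ht.injective (congrArg Subtype.val h)
  let W : s → ℝ := Function.extend emb w 0
  let A := Algebra.adjoin ℚ (Set.range ((↑) : s → ℝ))
  let K := IntermediateField.adjoin ℚ (Set.range ((↑) : s → ℝ))
  let φ : MvPolynomial s ℚ →ₐ[ℚ] DualNumber ℝ :=
    MvPolynomial.aeval fun i => inl (i : ℝ) + inr (W i)
  let g : A →+* DualNumber ℝ := φ.toRingHom.comp hs.1.aevalEquiv.symm.toRingEquiv.toRingHom
  have hfst : ∀ p, fst (φ p) = MvPolynomial.aeval ((↑) : s → ℝ) p := by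
    intro p
    have : (TrivSqZeroExt.fstHom ℚ ℝ ℝ).comp φ = MvPolynomial.aeval ((↑) : s → ℝ) :=
      MvPolynomial.algHom_ext fun i => by simp [φ]
    exact DFunLike.congr_fun this p
  have hg : ∀ a : A, fst (g a) = (a : ℝ) := by
    intro a
    obtain ⟨p, rfl⟩ := hs.1.aevalEquiv.surjective a
    simp [g, hfst]
  have hunit : ∀ y : nonZeroDivisors A, IsUnit (g y) := by
    intro y
    rw [isUnit_iff_isUnit_fst, isUnit_iff_ne_zero, hg]
    exact fun h0 => nonZeroDivisors.coe_ne_zero y (Subtype.ext h0)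
  let ψ : K →+* DualNumber ℝ := IsLocalization.lift hunit
  have hψ : ∀ x : K, fst (ψ x) = (x : ℝ) := by
    have : ((TrivSqZeroExt.fstHom ℚ ℝ ℝ).toRingHom.comp ψ) = (algebraMap K ℝ) := by
      refine IsLocalization.ringHom_ext (nonZeroDivisors A) (RingHom.ext fun a => ?_)
      change fst (ψ (algebraMap A K a)) = algebraMap K ℝ (algebraMap A K a)
      rw [IsLocalization.lift_eq, hg, ← IsScalarTower.algebraMap_apply]
      rfl
    exact fun x => RingHom.congr_fun this x
  let : Algebra K (DualNumber ℝ) := ψ.toAlgebra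
  let F : DualNumber ℝ →ₐ[K] ℝ :=
    { (TrivSqZeroExt.fstHom ℚ ℝ ℝ).toRingHom with commutes' := fun x => hψ x }
  have hFsurj : Function.Surjective F := fun r => ⟨inl r, rfl⟩
  have hnil : IsNilpotent (RingHom.ker (F : DualNumber ℝ →+* ℝ)) := by
    refine ⟨2, ?_⟩
    rw [Submodule.pow_succ, Submodule.pow_one, Submodule.zero_eq_bot, eq_bot_iff, Ideal.mul_le]
    intro a ha b hb
    have ha' : fst a = 0 := ha
    have hb' : fst b = 0 := hb
    exact (Submodule.mem_bot _).2 (TrivSqZeroExt.ext (by simp [ha']) (by simp [ha', hb']))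
  have : Algebra.IsAlgebraic K ℝ := hs.isAlgebraic_field
  have : Algebra.FormallyEtale K ℝ := Algebra.FormallyEtale.of_isSeparable K ℝ
  let L : ℝ →ₐ[K] DualNumber ℝ :=
    Algebra.FormallySmooth.liftOfSurjective (AlgHom.id K ℝ) F hFsurj hnil
  have hL : ∀ r, fst (L r) = r := fun r =>
    Algebra.FormallySmooth.liftOfSurjective_apply (AlgHom.id K ℝ) F hFsurj hnil r
  refine ⟨fun r => snd (L r), ⟨fun a b => by simp, fun a b => ?_⟩, fun j => ?_⟩
  · simp only [map_mul, snd_mul, hL, op_smul_eq_smul, smul_eq_mul]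
  · have hk : t j
        = algebraMap K ℝ (algebraMap A K (hs.1.aevalEquiv (MvPolynomial.X (emb j)))) := by
      rw [← IsScalarTower.algebraMap_apply, hs.1.algebraMap_aevalEquiv, MvPolynomial.aeval_X]
    change snd (L (t j)) = w j
    rw [hk, L.commutes]
    change snd (ψ _) = w j
    simp [ψ, IsLocalization.lift_eq, g, φ, W, hemb.extend_apply]

end Vale.Agent.P058
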