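import Mathlib
import Vale.Agent.P058.Criterion
import Vale.Agent.P058.DerivFree

/-!
Large spherical sets with algebraically independent stereographic coordinates are not Ramsey, and
almost every tuple of coordinates is algebraically independent.
-/

namespace Vale.Agent.P058

open Finset MeasureTheory

variable {m : ℕ}

/-- The squared length of a parameter. -/
def nsq (t : Fin m → ℝ) : ℝ := ∑ k, t k ^ 2

/-- Inverse stereographic projection onto the unit sphere of `ℝ^(m+1)`. -/
noncomputable def stereo (t : Fin m → ℝ) : Sp (m + 1) :=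
  WithLp.toLp 2 (Fin.snoc (fun k => 2 * t k / (1 + nsq t)) ((nsq t - 1) / (1 + nsq t)))

lemma one_add_nsq_pos (t : Fin m → ℝ) : 0 < 1 + nsq t := by
  have : 0 ≤ nsq t := sum_nonneg fun _ _ => sq_nonneg _
  linarith

lemma stereo_castSucc (t : Fin m → ℝ) (k : Fin m) :
    stereo t k.castSucc = 2 * t k / (1 + nsq t) := by simp [stereo]

lemma stereo_last (t : Fin m → ℝ) :
    stereo t (Fin.last m) = (nsq t - 1) / (1 + nsq t) := by simp [stereo]

lemma sum_sq_stereo (t : Fin m → ℝ) : ∑ k, stereo t k ^ 2 = 1 := by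
  have h := (one_add_nsq_pos t).ne'
  rw [Fin.sum_univ_castSucc]
  simp only [stereo_castSucc, stereo_last, div_pow, mul_pow, ← sum_div, ← mul_sum, ← add_div]
  rw [show ∑ k, t k ^ 2 = nsq t from rfl]
  field_simp
  ring

lemma norm_stereo (t : Fin m → ℝ) : ‖stereo t‖ = 1 := by
  rw [EuclideanSpace.norm_eq]
  simp [Real.norm_eq_abs, sq_abs, sum_sq_stereo]

/-- The scalar by which stereographic projection scales lengths is positive. -/
lemma sum_sq_deriv_stereo {δ : ℝ → ℝ} (hδ : IsDeriv δ) (t : Fin m → ℝ) :
    ∑ k, δ (stereo t k) ^ 2 = 4 / (1 + nsq t) ^ 2 * ∑ k, δ (t k) ^ 2 := by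
  have h := (one_add_nsq_pos t).ne'
  set P := ∑ k, 2 * t k * δ (t k) with hP
  have hn : δ (nsq t) = P := by simp only [nsq, hδ.sum, hδ.sq, hP]
  have hden : δ (1 + nsq t) = P := by rw [hδ.add, hδ.one, zero_add, hn]
  have hquot : ∀ a, δ (a / (1 + nsq t)) = (δ a - a / (1 + nsq t) * P) / (1 + nsq t) := fun a => by
    rw [eq_div_iff h]
    have e := congrArg δ (div_mul_cancel₀ a h)
    rw [hδ.mul, hden] at e
    linear_combination e
  rw [Fin.sum_univ_castSucc]
  simp only [stereo_castSucc, stereo_last, hquot, hδ.mul, hδ.two, hδ.sub, hn, hδ.one]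
  set S := ∑ k, δ (t k) ^ 2 with hS
  have e : ∀ k, ((2 * δ (t k) + t k * 0 - 2 * t k / (1 + nsq t) * P) / (1 + nsq t)) ^ 2
      = 4 / (1 + nsq t) ^ 2 * δ (t k) ^ 2 - 4 * P / (1 + nsq t) ^ 3 * (2 * t k * δ (t k))
        + 4 * P ^ 2 / (1 + nsq t) ^ 4 * t k ^ 2 := fun k => by
    field_simp
    ring
  simp only [e, sum_add_distrib, sum_sub_distrib, ← mul_sum, ← hP, ← hS]
  rw [show ∑ k, t k ^ 2 = nsq t from rfl]
  field_simp
  ring

/-- Affine independence of the parameters `0, e_k, 2 e_0` under the quadratic lift. -/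
noncomputable def specialPt (m : ℕ) : Fin (m + 2) → Fin m → ℝ :=
  Fin.snoc (Fin.snoc (fun k => Pi.single k (1 : ℝ)) 0)
    (fun k => if (k : ℕ) = 0 then 2 else 0)

/-- The lift matrix `(1, t, |t|²)`. -/
def liftMat {R : Type*} [CommRing R] (t : Fin (m + 2) → Fin m → R) :
    Matrix (Fin (m + 2)) (Fin (m + 2)) R :=
  fun j => Fin.snoc (Fin.snoc (t j) 1) (∑ k, t j k ^ 2)

lemma det_special_ne_zero (hm : 1 ≤ m) : (liftMat (specialPt m)).det ≠ 0 := by
  intro hdet
  obtain ⟨v, hv, hmv⟩ := Matrix.exists_mulVec_eq_zero_iff.2 hdet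
  set a := fun k : Fin m => v k.castSucc.castSucc with ha
  set b := v (Fin.last m).castSucc with hb
  set g := v (Fin.last (m + 1)) with hg
  have hrow : ∀ j, ∑ k, specialPt m j k * a k + b + (∑ k, specialPt m j k ^ 2) * g = 0 := by
    intro j
    have := congr_fun hmv j
    simpa [Matrix.mulVec, dotProduct, Fin.sum_univ_castSucc, liftMat, ha, hb, hg] using this
  have h0 := hrow (Fin.last m).castSucc
  simp [specialPt] at h0
  have hek : ∀ k, a k + g = 0 := fun k => by
    have := hrow k.castSucc.castSucc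
    simp [specialPt, Pi.single_apply, h0] at this
    exact this
  have h2 := hrow (Fin.last (m + 1))
  obtain ⟨i0⟩ : Nonempty (Fin m) := ⟨⟨0, hm⟩⟩
  set z : Fin m := ⟨0, hm⟩ with hz
  have hsel : ∀ k : Fin m, specialPt m (Fin.last (m + 1)) k = if k = z then 2 else 0 := fun k => by
    simp [specialPt, hz, Fin.ext_iff]
  simp [hsel, h0, ite_mul, ite_pow] at h2
  have hg0 : g = 0 := by linarith [hek z]
  refine hv (funext fun j => ?_)
  induction j using Fin.lastCases with
  | last => exact hg0
  | cast j =>
    induction j using Fin.lastCases with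
    | last => exact h0
    | cast k => exact show a k = 0 by linarith [hek k]

/-- Generic parameters give spanning points. -/
lemma spans_of_indep (hm : 1 ≤ m) {n : ℕ} (hn : m + 2 ≤ n) {t : Fin n → Fin m → ℝ}
    (ht : AlgebraicIndependent ℚ fun x : Fin n × Fin m => t x.1 x.2) :
    Spans fun i => stereo (t i) := by
  classical
  let c := Fin.castLEEmb hn
  have hdet : (liftMat fun j => t (c j)).det ≠ 0 := by
    intro hzero
    set Q : MvPolynomial (Fin n × Fin m) ℚ :=
      (liftMat fun j k => MvPolynomial.X (c j, k)).det with hQ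
    have hev : ∀ u : Fin n → Fin m → ℝ,
        MvPolynomial.aeval (fun x : Fin n × Fin m => u x.1 x.2) Q
          = (liftMat fun j => u (c j)).det := by
      intro u
      rw [hQ, AlgHom.map_det]
      congr 1
      ext j l
      induction l using Fin.lastCases with
      | last => simp [AlgHom.mapMatrix_apply, liftMat]
      | cast l =>
        induction l using Fin.lastCases with
        | last => simp [AlgHom.mapMatrix_apply, liftMat]
        | cast l => simp [AlgHom.mapMatrix_apply, liftMat]
    have hQ0 : Q = 0 := by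
      refine (injective_iff_map_eq_zero _).1 ht Q ?_
      rw [hev t, hzero]
    have := hev (Function.extend c (specialPt m) 0)
    rw [hQ0, map_zero] at this
    exact det_special_ne_zero hm (by simpa [c.injective.extend_apply] using this.symm)
  intro b y
  let A : Matrix (Fin (m + 2)) (Fin (m + 2)) ℝ := fun j => Fin.snoc (fun k => stereo (t (c j)) k) 1
  have hA : A.det ≠ 0 := by
    intro hz
    obtain ⟨v, hv, hmv⟩ := Matrix.exists_mulVec_eq_zero_iff.2 hz
    set α := fun k : Fin m => v k.castSucc.castSucc with hα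
    set β := v (Fin.last m).castSucc with hβ
    set γ := v (Fin.last (m + 1)) with hγ
    let v' : Fin (m + 2) → ℝ := Fin.snoc (Fin.snoc (fun k => 2 * α k) (γ - β)) (γ + β)
    refine hdet (Matrix.exists_mulVec_eq_zero_iff.1 ⟨v', ?_, funext fun j => ?_⟩)
    · intro hzero
      refine hv (funext fun l => ?_)
      have e1 := congr_fun hzero (Fin.last (m + 1))
      have e2 := congr_fun hzero (Fin.last m).castSucc
      simp [v'] at e1 e2
      induction l using Fin.lastCases with
      | last => exact show γ = 0 by linarith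
      | cast l =>
        induction l using Fin.lastCases with
        | last => exact show β = 0 by linarith
        | cast k =>
          have e3 := congr_fun hzero k.castSucc.castSucc
          simp [v'] at e3
          exact e3
    · have hj := congr_fun hmv j
      simp [Matrix.mulVec, dotProduct, Fin.sum_univ_castSucc, A, ← hβ, ← hγ, stereo_castSucc,
        stereo_last] at hj
      simp [Matrix.mulVec, dotProduct, Fin.sum_univ_castSucc, liftMat, v']
      have hne := (one_add_nsq_pos (t (c j))).ne'
      have hs : ∑ k, 2 * t (c j) k / (1 + nsq (t (c j))) * α k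
          = (∑ k, t (c j) k * (2 * α k)) / (1 + nsq (t (c j))) := by
        rw [sum_div]
        exact sum_congr rfl fun k _ => by ring
      simp only [hα] at hs ⊢
      rw [hs] at hj
      rw [show ∑ k, t (c j) k ^ 2 = nsq (t (c j)) from rfl]
      field_simp at hj
      linear_combination (norm := ring_nf) hj
  obtain ⟨w, hw⟩ := (Matrix.vecMul_surjective_iff_isUnit.2
    ((Matrix.isUnit_iff_isUnit_det A).2 (isUnit_iff_ne_zero.2 hA)))
      (Fin.snoc (fun k => y k) b)
  refine ⟨Function.extend c w 0, ?_, ?_⟩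
  · rw [← sum_subset (subset_univ (univ.map c)) fun i _ hi => ?_, sum_map]
    · have := congr_fun hw (Fin.last (m + 1))
      simpa [Matrix.vecMul, dotProduct, A, c.injective.extend_apply] using this
    · exact Function.extend_apply' _ _ _ fun ⟨j, hj⟩ => hi (mem_map.2 ⟨j, mem_univ j, hj⟩)
  · ext k
    simp only [WithLp.ofLp_sum, Finset.sum_apply, WithLp.ofLp_smul, Pi.smul_apply, smul_eq_mul]
    rw [← sum_subset (subset_univ (univ.map c)) fun i _ hi => ?_, sum_map]
    · have := congr_fun hw k.castSucc
      simpa [Matrix.vecMul, dotProduct, A, c.injective.extend_apply] using this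
    · simp [Function.extend_apply' _ _ _
        (fun ⟨j, hj⟩ => hi (mem_map.2 ⟨j, mem_univ j, hj⟩) : ¬∃ j, c j = i)]

/-- A subspace contains a vector with support at least its dimension. -/
lemma exists_large_support {n : ℕ} (V : Submodule ℝ (Fin n → ℝ)) :
    ∃ v ∈ V, Module.finrank ℝ V ≤ (univ.filter fun i => v i ≠ 0).card := by
  classical
  have hne : {j : ℕ | ∃ v ∈ V, (univ.filter fun i => v i ≠ 0).card = j}.Nonempty :=
    ⟨_, 0, V.zero_mem, rfl⟩
  have hbdd : BddAbove {j : ℕ | ∃ v ∈ V, (univ.filter fun i => v i ≠ 0).card = j} :=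
    ⟨n, by rintro j ⟨v, -, rfl⟩; exact (card_filter_le _ _).trans (by simp)⟩
  obtain ⟨v, hv, hcard⟩ := Nat.sSup_mem hne hbdd
  refine ⟨v, hv, not_lt.1 fun hlt => ?_⟩
  set S := univ.filter fun i => v i ≠ 0 with hS
  let f : V →ₗ[ℝ] S → ℝ := (LinearMap.funLeft ℝ ℝ ((↑) : S → Fin n)).comp V.subtype
  have hker : LinearMap.ker f ≠ ⊥ := fun h => by
    have := LinearMap.finrank_le_finrank_of_injective (LinearMap.ker_eq_bot.1 h)
    simp only [Module.finrank_fintype_fun_eq_card, Fintype.card_coe] at this
    omega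
  obtain ⟨⟨w, hwV⟩, hw, hw0⟩ := (Submodule.ne_bot_iff _).1 hker
  obtain ⟨i, hi⟩ : ∃ i, w i ≠ 0 := by
    by_contra h
    simp only [not_exists, not_not] at h
    exact hw0 (Subtype.ext (funext h))
  have hwS : ∀ j ∈ S, w j = 0 := fun j hj => congr_fun (LinearMap.mem_ker.1 hw) ⟨j, hj⟩
  have hiS : i ∉ S := fun h => hi (hwS i h)
  have hle : (univ.filter fun j => (v + w) j ≠ 0).card ≤ S.card := by
    rw [hS, hcard]
    exact le_csSup hbdd ⟨_, V.add_mem hv hwV, rfl⟩
  have hsub : insert i S ⊆ univ.filter fun j => (v + w) j ≠ 0 := by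
    intro j hj
    simp only [mem_filter, mem_univ, true_and, Pi.add_apply]
    rcases mem_insert.1 hj with rfl | hj
    · have : v j = 0 := by simpa [hS] using hiS
      simpa [this] using hi
    · have hvj : v j ≠ 0 := by simpa [hS] using hj
      simpa [hwS j hj] using hvj
  have := card_le_card hsub
  rw [card_insert_of_notMem hiS] at this
  omega

/-- Large sets with algebraically independent stereographic coordinates are not Ramsey. -/
theorem not_ramsey_of_indep (hm : 1 ≤ m) {n : ℕ} (hn : 3 * (m + 2) ^ 2 ≤ n)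
    {t : Fin n → Fin m → ℝ}
    (ht : AlgebraicIndependent ℚ fun x : Fin n × Fin m => t x.1 x.2) :
    Function.Injective (fun i => stereo (t i)) ∧
    ∃ r : ℕ, 2 ≤ r ∧ ∀ D : ℕ, ∃ col : Sp D → Fin r, ∀ q : Fin n → Sp D,
      (∀ i j, dist (q i) (q j) = dist (stereo (t i)) (stereo (t j))) →
        ∃ i j, col (q i) ≠ col (q j) := by
  classical
  have hinj : Function.Injective (fun i => stereo (t i)) := by
    intro i j hij
    by_contra hne
    obtain ⟨z⟩ : Nonempty (Fin m) := ⟨⟨0, hm⟩⟩
    have hd : ∀ i, 1 - stereo (t i) (Fin.last m) = 2 / (1 + nsq (t i)) := fun i => by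
      rw [stereo_last]; field_simp [(one_add_nsq_pos (t i)).ne']; ring
    have h1 := congrArg (fun p : Sp (m + 1) => p z.castSucc) hij
    have h2 := congrArg (fun p : Sp (m + 1) => 1 - p (Fin.last m)) hij
    simp only [hd, stereo_castSucc] at h1 h2
    have ht' : t i z = t j z := by
      have := one_add_nsq_pos (t i)
      have := one_add_nsq_pos (t j)
      field_simp at h1 h2
      rw [h2] at h1
      exact mul_right_cancel₀ (ne_of_gt ‹0 < 1 + nsq (t i)›) (by linear_combination h1)
    exact hne (congrArg Prod.fst (ht.injective (a₁ := (i, z)) (a₂ := (j, z)) ht'))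
  refine ⟨hinj, ?_⟩
  have hbig : (m + 2) * (m + 2) * 3 ≤ n := by rw [pow_two] at hn; omega
  set p : Fin n → Sp (m + 1) := fun i => stereo (t i) with hp
  let L : (Fin n → ℝ) →ₗ[ℝ] ℝ × (Fin (m + 1) → ℝ) × (Fin (m + 1) × Fin (m + 1) → ℝ) :=
    { toFun := fun l => (∑ i, l i, fun k => ∑ i, l i * p i k,
        fun km => ∑ i, l i * (p i km.1 * p i km.2))
      map_add' := fun l l' => by
        ext <;> simp [add_mul, sum_add_distrib]
      map_smul' := fun c l => by
        ext <;> simp [mul_sum, mul_assoc] }
  have hdimL : n ≤ Module.finrank ℝ (LinearMap.ker L) + (1 + (m + 1) + (m + 1) * (m + 1)) := by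
    have h1 := LinearMap.finrank_range_add_finrank_ker L
    have h2 := Submodule.finrank_le (LinearMap.range L)
    simp only [Module.finrank_fintype_fun_eq_card, Fintype.card_fin, Module.finrank_prod,
      Module.finrank_self, Fintype.card_prod] at h1 h2
    omega
  obtain ⟨l0, hl0, hsupp⟩ := exists_large_support (LinearMap.ker L)
  obtain ⟨l, hl, hpos⟩ : ∃ l ∈ LinearMap.ker L,
      (m + 1) + (m + 1) * (m + 1) < (univ.filter fun i => 0 < l i).card := by
    have hsplit : (univ.filter fun i => l0 i ≠ 0).card ≤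
        (univ.filter fun i => 0 < l0 i).card + (univ.filter fun i => 0 < (-l0) i).card := by
      refine le_trans (card_le_card fun i hi => ?_) (card_union_le _ _)
      simp only [mem_filter, mem_univ, true_and, mem_union, Pi.neg_apply, neg_pos] at hi ⊢
      exact (lt_or_gt_of_ne hi).symm
    have hlarge : 2 * ((m + 1) + (m + 1) * (m + 1)) < Module.finrank ℝ (LinearMap.ker L) := by
      have : 3 * ((m + 1) + (m + 1) * (m + 1)) + 1 < (m + 2) * (m + 2) * 3 := by nlinarith
      omega
    by_cases h : (m + 1) + (m + 1) * (m + 1) < (univ.filter fun i => 0 < l0 i).card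
    · exact ⟨l0, hl0, h⟩
    · exact ⟨-l0, Submodule.neg_mem _ hl0, by omega⟩
  set S := univ.filter fun i => 0 < l i with hS
  obtain ⟨z⟩ : Nonempty (Fin m) := ⟨⟨0, hm⟩⟩
  -- tangent data: derivation values on the positive set, in the direction of the first parameter
  let DX : Fin n → Fin (m + 1) → ℝ := fun i => Fin.snoc
    (fun k => (if k = z then 2 else 0) / (1 + nsq (t i))
      - 2 * t i k * (2 * t i z) / (1 + nsq (t i)) ^ 2)
    ((2 * t i z) / (1 + nsq (t i)) - (nsq (t i) - 1) * (2 * t i z) / (1 + nsq (t i)) ^ 2)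
  let T : (S → ℝ) →ₗ[ℝ] (Fin (m + 1) → ℝ) × (Fin (m + 1) × Fin (m + 1) → ℝ) :=
    { toFun := fun w => (fun k => ∑ i : S, w i * (l i * DX i k),
        fun km => ∑ i : S, w i * (l i * (p i km.1 * DX i km.2 - p i km.2 * DX i km.1)))
      map_add' := fun w w' => by ext <;> simp [add_mul, sum_add_distrib]
      map_smul' := fun c w => by ext <;> simp [mul_sum, mul_assoc] }
  obtain ⟨w, hw, hw0⟩ := (Submodule.ne_bot_iff _).1 (show LinearMap.ker T ≠ ⊥ from fun h => by
    have := LinearMap.finrank_le_finrank_of_injective (LinearMap.ker_eq_bot.1 h)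
    simp only [Module.finrank_fintype_fun_eq_card, Fintype.card_fin, Module.finrank_prod,
      Fintype.card_coe, Fintype.card_prod] at this
    omega)
  let w' : Fin n → ℝ := fun i => if h : i ∈ S then w ⟨i, h⟩ else 0
  obtain ⟨δ, hδ, hδt⟩ := exists_deriv_prescribed ht
    (fun x : Fin n × Fin m => if x.2 = z then w' x.1 else 0)
  have hdn : ∀ i, δ (nsq (t i)) = 2 * t i z * w' i := fun i => by
    simp only [nsq, hδ.sum, hδ.sq, fun k => hδt (i, k)]
    simp
  have hDX : ∀ i k, δ (p i k) = w' i * DX i k := by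
    intro i k
    have hne := (one_add_nsq_pos (t i)).ne'
    have hden : δ (1 + nsq (t i)) = 2 * t i z * w' i := by rw [hδ.add, hδ.one, zero_add, hdn]
    induction k using Fin.lastCases with
    | last =>
      have e := congrArg δ (div_mul_cancel₀ (nsq (t i) - 1) hne)
      rw [hδ.mul, hden, hδ.sub, hdn, hδ.one, sub_zero] at e
      simp only [hp, stereo_last, DX, Fin.snoc_last]
      field_simp at e ⊢
      linear_combination e
    | cast k =>
      have e := congrArg δ (div_mul_cancel₀ (2 * t i k) hne)
      rw [hδ.mul, hden, hδ.mul 2 (t i k), hδ.two, hδt (i, k)] at e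
      simp only [hp, stereo_castSucc, DX, Fin.snoc_castSucc]
      simp only at e
      split_ifs with hk
      · rw [if_pos hk] at e
        field_simp at e ⊢
        linear_combination e
      · rw [if_neg hk] at e
        field_simp at e ⊢
        linear_combination e
  obtain ⟨hL0, hL1, hL2⟩ : (∑ i, l i = 0) ∧ (∀ k, ∑ i, l i * p i k = 0) ∧
      ∀ k k', ∑ i, l i * (p i k * p i k') = 0 := by
    have h := LinearMap.mem_ker.1 hl
    exact ⟨congrArg Prod.fst h, fun k => congr_fun (congrArg (fun x => x.2.1) h) k,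
      fun k k' => congr_fun (congrArg (fun x => x.2.2) h) (k, k')⟩
  have hsumS : ∀ F : Fin n → ℝ, ∑ i, w' i * F i = ∑ i : S, w i * F i := fun F => by
    rw [← sum_subset (subset_univ S) fun i _ hi => by simp [w', hi], ← sum_coe_sort]
    exact sum_congr rfl fun i _ => by simp [w']
  refine not_ramsey_of_deriv hδ (spans_of_indep hm (by nlinarith) ht) (l := l) hL0 hL1 hL2
    (fun k => ?_) (fun k k' => ?_) ?_
  · rw [sum_congr rfl fun i _ => show l i * δ (p i k) = w' i * (l i * DX i k) by rw [hDX]; ring,
      hsumS]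
    exact congr_fun (congrArg Prod.fst (LinearMap.mem_ker.1 hw)) k
  · rw [← sub_eq_zero, ← sum_sub_distrib, sum_congr rfl fun i _ =>
      show l i * (p i k * δ (p i k')) - l i * (p i k' * δ (p i k))
        = w' i * (l i * (p i k * DX i k' - p i k' * DX i k)) by rw [hDX, hDX]; ring, hsumS]
    exact congr_fun (congrArg Prod.snd (LinearMap.mem_ker.1 hw)) (k, k')
  · obtain ⟨i₁, hi₁⟩ : ∃ i, w i ≠ 0 := by
      by_contra h
      simp only [not_exists, not_not] at h
      exact hw0 (funext h)
    have hterm : ∀ i, derivSq δ (p i) = 4 / (1 + nsq (t i)) ^ 2 * w' i ^ 2 := fun i => by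
      rw [derivSq, hp, sum_sq_deriv_stereo hδ,
        sum_congr rfl fun k _ => congrArg (· ^ 2) (hδt (i, k) : δ (t i k) = if k = z then w' i else 0)]
      simp [ite_pow]
    change ∑ i, l i * derivSq δ (p i) ≠ 0
    simp only [hterm]
    refine ne_of_gt (sum_pos' (fun i _ => ?_) ⟨i₁.1, mem_univ _, ?_⟩)
    · by_cases h : i ∈ S
      · exact mul_nonneg (le_of_lt (by simpa [hS] using h)) (by positivity)
      · simp [w', h]
    · refine mul_pos (mem_filter.1 i₁.2).2 (mul_pos ?_ ?_)
      · have := one_add_nsq_pos (t i₁.1)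
        positivity
      · simp only [w', dif_pos i₁.2]
        positivity

/-- Almost every tuple of reals has no polynomial relation. -/
lemma ae_eval_ne_zero : ∀ (N : ℕ) (P : MvPolynomial (Fin N) ℝ), P ≠ 0 →
    ∀ᵐ x : Fin N → ℝ, MvPolynomial.eval x P ≠ 0
  | 0, P, hP => .of_forall fun x h => hP (by
      obtain ⟨c, rfl⟩ := MvPolynomial.C_surjective (Fin 0) P
      simp_all)
  | N + 1, P, hP => by
    have hmp := volume_preserving_piFinSuccAbove (fun _ : Fin (N + 1) => ℝ) 0
    have hmeas : MeasurableSet {y : ℝ × (Fin N → ℝ) |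
        MvPolynomial.eval (Fin.cons y.1 y.2) P ≠ 0} :=
      (isOpen_ne_fun ((MvPolynomial.continuous_eval P).comp (by fun_prop))
        continuous_const).measurableSet
    have key : ∀ᵐ y : ℝ × (Fin N → ℝ), MvPolynomial.eval (Fin.cons y.1 y.2) P ≠ 0 := by
      rw [Measure.volume_eq_prod, ← Measure.prod_swap,
        ae_map_iff measurable_swap.aemeasurable hmeas]
      refine (Measure.ae_prod_iff_ae_ae (measurable_swap hmeas)).2 ?_
      set Q := MvPolynomial.finSuccEquiv ℝ N P with hQ
      have hQ0 : Q ≠ 0 := by simp [hQ, hP]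
      obtain ⟨d, hd⟩ := Polynomial.support_nonempty.2 hQ0
      filter_upwards [ae_eval_ne_zero N (Q.coeff d) (Polynomial.mem_support_iff.1 hd)] with y hy
      have hQy : Q.map (MvPolynomial.eval y) ≠ 0 := fun h => hy (by
        simpa using congrArg (fun R => Polynomial.coeff R d) h)
      refine (measure_mono_null (fun a ha => ?_)
        ((Q.map (MvPolynomial.eval y)).roots.toFinset.finite_toSet.measure_zero volume) : _)
      simp only [Set.mem_compl_iff, Prod.swap_prod_mk, Classical.not_not, Set.mem_ofPred_eq] at ha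
      rw [MvPolynomial.eval_eq_eval_mv_eval'] at ha
      simpa [hQ] using And.intro hQy ha
    filter_upwards [hmp.quasiMeasurePreserving.ae key] with x hx
    have hcons : (Fin.cons (x 0) fun k => x k.succ : Fin (N + 1) → ℝ) = x := Fin.cons_self_tail x
    simpa [MeasurableEquiv.piFinSuccAbove, Fin.insertNthEquiv, Fin.removeNth, Fin.tail_def, hcons]
      using hx

/-- Almost every finite tuple of reals is algebraically independent. -/
lemma ae_algebraicIndependent (ι : Type*) [Fintype ι] :
    ∀ᵐ x : ι → ℝ, AlgebraicIndependent ℚ x := by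
  set e := Fintype.equivFin ι with he
  have : Countable (MvPolynomial (Fin (Fintype.card ι)) ℚ) :=
    .of_equiv _ (MvPolynomial.basisMonomials (Fin (Fintype.card ι)) ℚ).repr.toEquiv.symm
  have h : ∀ᵐ y : Fin (Fintype.card ι) → ℝ, AlgebraicIndependent ℚ y := by
    have : ∀ᵐ y : Fin (Fintype.card ι) → ℝ, ∀ P : MvPolynomial (Fin (Fintype.card ι)) ℚ,
        P ≠ 0 → MvPolynomial.aeval y P ≠ 0 := by
      rw [ae_all_iff]
      intro P
      by_cases hP : P = 0
      · exact .of_forall fun _ h => absurd hP h
      filter_upwards [ae_eval_ne_zero _ (MvPolynomial.map (algebraMap ℚ ℝ) P)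
        ((MvPolynomial.map_injective _ (algebraMap ℚ ℝ).injective).ne_iff' (map_zero _) |>.2 hP)]
        with y hy _
      rwa [MvPolynomial.eval_map, ← MvPolynomial.aeval_def] at hy
    filter_upwards [this] with y hy
    exact (injective_iff_map_eq_zero _).2 fun P hP => by_contra fun h => hy P h hP
  have hmp := volume_measurePreserving_piCongrLeft (fun _ : Fin (Fintype.card ι) => ℝ) e
  filter_upwards [hmp.quasiMeasurePreserving.ae h] with x hx
  have := (algebraicIndependent_equiv e).2 hx
  convert! this using 1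
  funext i
  simp [MeasurableEquiv.piCongrLeft, Equiv.piCongrLeft]

end Vale.Agent.P058
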